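import Vale.Agent.Lib.P219E.Defs
import Vale.Agent.Lib.P219D.Main

/-!
# P219E: bridge to the bundled form
-/

open scoped ContDiff ENNReal Topology
open MeasureTheory Set

namespace Vale.Agent.Lib.P219E

variable {n : ℕ}

/-- matrix of the metric -/
noncomputable def mat (g : Rn n → Rn n → Rn n → ℝ) (x : Rn n) : Matrix (Fin n) (Fin n) ℝ :=
  Matrix.of fun i j => g x (EuclideanSpace.single i 1) (EuclideanSpace.single j 1)

theorem g_zero {g : Rn n → Rn n → Rn n → ℝ} (hg : IsRiemannianMetric g) (x v : Rn n) :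
    g x 0 v = 0 := by
  have := hg.smul x 0 0 v
  simpa using this

theorem g_sum {g : Rn n → Rn n → Rn n → ℝ} (hg : IsRiemannianMetric g) (x v : Rn n)
    (s : Finset (Fin n)) (f : Fin n → Rn n) : g x (∑ i ∈ s, f i) v = ∑ i ∈ s, g x (f i) v := by
  induction s using Finset.cons_induction with
  | empty => simp [g_zero hg]
  | cons a s ha ih => rw [Finset.sum_cons, Finset.sum_cons, hg.add, ih]

theorem g_apply {g : Rn n → Rn n → Rn n → ℝ} (hg : IsRiemannianMetric g) (x a b : Rn n) :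
    g x a b = ∑ k, ∑ l, mat g x k l * a k * b l := by
  have h1 : ∀ a b : Rn n, g x a b = ∑ k, a k * g x (EuclideanSpace.single k 1) b := by
    intro a b
    conv_lhs => rw [P219D.sum_single a]
    rw [g_sum hg]
    exact Finset.sum_congr rfl fun i _ => hg.smul _ _ _ _
  rw [h1]
  refine Finset.sum_congr rfl fun k _ => ?_
  rw [hg.symm, h1, Finset.mul_sum]
  refine Finset.sum_congr rfl fun l _ => ?_
  rw [hg.symm x (EuclideanSpace.single l 1), mat, Matrix.of_apply]
  ring

theorem isMetric_mat {g : Rn n → Rn n → Rn n → ℝ} (hg : IsRiemannianMetric g) :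
    P219.Co.IsMetric (mat g) := by
  refine ⟨fun i j => hg.smooth _ _, fun x i j => hg.symm _ _ _, fun x v hv => ?_⟩
  have h0 : (WithLp.toLp 2 v : Rn n) ≠ 0 := by
    intro h
    apply hv
    have := congrArg WithLp.ofLp h
    simpa using this
  have h1 := hg.pos x _ h0
  rw [g_apply hg] at h1
  exact h1

/-- the bundled metric -/
noncomputable def G (g : Rn n → Rn n → Rn n → ℝ) : Rn n → Rn n →L[ℝ] Rn n →L[ℝ] ℝ :=
  P219.Co.toG (mat g)

theorem G_apply {g : Rn n → Rn n → Rn n → ℝ} (hg : IsRiemannianMetric g) (x a b : Rn n) :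
    G g x a b = g x a b := by
  rw [g_apply hg]
  exact P219.Co.bil_apply _ _ _

theorem metric_G {g : Rn n → Rn n → Rn n → ℝ} (hg : IsRiemannianMetric g) :
    P219D.IsRiemannianMetric (G g) := by
  have h := P219.Co.isMetric_toG (isMetric_mat hg)
  exact ⟨h.smooth, h.symm, h.pos⟩

theorem mat_G {g : Rn n → Rn n → Rn n → ℝ} (hg : IsRiemannianMetric g) (x : Rn n) :
    P219D.mat (G g) x = mat g x := by
  ext i j
  exact G_apply hg x _ _

/-- the bundled connection -/
noncomputable def Γb (g : Rn n → Rn n → Rn n → ℝ) : Rn n → Rn n →L[ℝ] Rn n →L[ℝ] Rn n :=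
  P219.Co.toΓ (mat g)

theorem lc_b {g : Rn n → Rn n → Rn n → ℝ} (hg : IsRiemannianMetric g) :
    P219.IsLeviCivita (G g) (Γb g) := P219.Co.isLeviCivita_toΓ (isMetric_mat hg)

theorem fderiv_G {g : Rn n → Rn n → Rn n → ℝ} (hg : IsRiemannianMetric g) (x u v w : Rn n) :
    dd (fun y => g y v w) x u = fderiv ℝ (G g) x u v w := by
  have hd : HasFDerivAt (G g) (fderiv ℝ (G g) x) x :=
    ((metric_G hg).smooth.differentiable (by simp) x).hasFDerivAt
  have h2 := (hd.clm_apply (hasFDerivAt_const v x)).clm_apply (hasFDerivAt_const w x)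
  have h3 : (fun y => g y v w) = fun y => G g y v w := by
    funext y
    rw [G_apply hg]
  unfold dd
  rw [h3, h2.fderiv]
  simp

theorem conn_eq {g : Rn n → Rn n → Rn n → ℝ} (hg : IsRiemannianMetric g)
    {Γ : Rn n → Rn n → Rn n → Rn n} (h : IsLeviCivita g Γ) : Γ = fun x u v => Γb g x u v := by
  have h' := lc_b hg
  funext p u v
  have hT : ∀ u v w : Rn n, g p (Γ p u v) w - g p (Γb g p u v) w = 0 := by
    intro u v w
    have m1 := h.metric p u v w
    have m1' := h'.compat p u v w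
    have m2 := h.metric p v w u
    have m2' := h'.compat p v w u
    have m3 := h.metric p w u v
    have m3' := h'.compat p w u v
    rw [fderiv_G hg] at m1 m2 m3
    have s1 := h.torsionFree p v u
    have s2 := h.torsionFree p w u
    have s3 := h.torsionFree p w v
    have s1' := h'.symm p v u
    have s2' := h'.symm p w u
    have s3' := h'.symm p w v
    rw [s1] at m2
    rw [s1'] at m2'
    rw [s2, s3] at m3
    rw [s2', s3'] at m3'
    simp only [G_apply hg] at m1' m2' m3'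
    have g1 := hg.symm p v (Γ p u w)
    have g2 := hg.symm p w (Γ p u v)
    have g3 := hg.symm p u (Γ p v w)
    have g1' := hg.symm p v (Γb g p u w)
    have g2' := hg.symm p w (Γb g p u v)
    have g3' := hg.symm p u (Γb g p v w)
    rw [g1] at m1
    rw [g1'] at m1'
    rw [g2] at m2
    rw [g2'] at m2'
    rw [g3] at m3
    rw [g3'] at m3'
    linarith
  by_contra hne
  have hne' : Γ p u v - Γb g p u v ≠ 0 := sub_ne_zero.mpr hne
  have hpos := hg.pos p _ hne'
  have h0 := hT u v (Γ p u v - Γb g p u v)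
  have e1 : g p (Γ p u v - Γb g p u v) (Γ p u v - Γb g p u v)
      = g p (Γ p u v) (Γ p u v - Γb g p u v) - g p (Γb g p u v) (Γ p u v - Γb g p u v) := by
    have e2 : Γ p u v - Γb g p u v = Γ p u v + (-1 : ℝ) • Γb g p u v := by
      rw [neg_one_smul, sub_eq_add_neg]
    conv_lhs => rw [e2]
    rw [hg.add, hg.smul, ← e2]
    ring
  linarith

theorem lcD {g : Rn n → Rn n → Rn n → ℝ} (hg : IsRiemannianMetric g) :
    P219D.IsLeviCivita (G g) (Γb g) := by
  have h := lc_b hg
  have hm := metric_G hg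
  refine ⟨fun Y Z hY hZ x => ?_, fun Y Z hY hZ x u => ?_⟩
  · unfold P219D.nabla
    rw [h.symm x (Z x) (Y x), VectorField.lieBracket]
    abel
  · have hd : HasFDerivAt (G g) (fderiv ℝ (G g) x) x :=
      (hm.smooth.differentiable (by simp) x).hasFDerivAt
    have hYd := (hY.differentiable (by simp) x).hasFDerivAt
    have hZd := (hZ.differentiable (by simp) x).hasFDerivAt
    have h2 := (hd.clm_apply hYd).clm_apply hZd
    rw [h2.fderiv]
    unfold P219D.nabla
    have hc := h.compat x u (Y x) (Z x)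
    simp only [add_apply, map_add, ContinuousLinearMap.comp_apply,
      ContinuousLinearMap.flip_apply]
    rw [hc]
    ring

theorem secLE_G {κ : ℝ} {g : Rn n → Rn n → Rn n → ℝ} (h : IsCompleteSecLE κ g) :
    P219D.IsCompleteSecLE κ (G g) := by
  obtain ⟨hg, Γ, hlc, hcomp, hsec⟩ := h
  have hΓ := conn_eq hg hlc
  subst hΓ
  refine ⟨metric_G hg, Γb g, lcD hg, hcomp, fun x u v => ?_⟩
  have h1 := hsec x u v
  rw [← G_apply hg, ← G_apply hg, ← G_apply hg, ← G_apply hg] at h1
  exact h1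

theorem vol_G {g : Rn n → Rn n → Rn n → ℝ} (hg : IsRiemannianMetric g) :
    P219D.vol (G g) = vol g := by
  unfold P219D.vol vol
  congr 1
  funext x
  rw [P219D.gramDet_top, mat_G hg]
  rfl

theorem conormal_of {Ω : Set (Rn n)} {p : Rn n} {f : Rn n → ℝ} (h : IsLocalDefining Ω p f) :
    P219D.IsConormal Ω p (fderiv ℝ f p) := by
  obtain ⟨h1, h2, ⟨v, hv⟩, h4⟩ := h
  refine ⟨fun h0 => hv ?_, f, h1, (h1.differentiable (by simp) p).hasFDerivAt, h2, h4⟩
  unfold dd
  rw [h0]
  rfl

theorem domain_of {Ω : Set (Rn n)} (h : IsSmoothDomain Ω) : P219D.IsSmoothDomain Ω := by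
  refine ⟨h.isOpen, h.isBounded, fun p hp => ?_⟩
  obtain ⟨f, hf⟩ := h.smooth_boundary p hp
  exact ⟨_, conormal_of hf⟩

theorem area_G (hn : 2 ≤ n) {g : Rn n → Rn n → Rn n → ℝ} (hg : IsRiemannianMetric g)
    {Ω : Set (Rn n)} (hΩ : IsSmoothDomain Ω) : P219D.area (G g) Ω = area g Ω := by
  unfold P219D.area area
  refine setLIntegral_congr_fun isClosed_frontier.measurableSet fun p hp => ?_
  obtain ⟨f, hf⟩ := hΩ.smooth_boundary p hp
  obtain ⟨T, hT⟩ : ∃ T, T = P219D.tangent Ω p := ⟨_, rfl⟩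
  have hcon := conormal_of hf
  have hker := P219D.tangent_eq_ker hcon
  have hne : Nonempty (Fin (n - 1)) := ⟨⟨0, by omega⟩⟩
  have hrank : Module.finrank ℝ T = n - 1 := by
    rw [hT, hker]
    have hl : ((fderiv ℝ f p : Rn n →L[ℝ] ℝ) : Rn n →ₗ[ℝ] ℝ) ≠ 0 := by
      intro h
      apply hcon.1
      ext v
      exact LinearMap.congr_fun h v
    have h1 := LinearMap.finrank_range_add_finrank_ker
      ((fderiv ℝ f p : Rn n →L[ℝ] ℝ) : Rn n →ₗ[ℝ] ℝ)
    rw [LinearMap.range_eq_top.mpr (LinearMap.surjective hl), finrank_top,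
      Module.finrank_self, finrank_euclideanSpace, Fintype.card_fin] at h1
    have h2 : Module.finrank ℝ (LinearMap.ker ((fderiv ℝ f p : Rn n →L[ℝ] ℝ) : Rn n →ₗ[ℝ] ℝ))
        = n - 1 := by omega
    exact h2
  have hmem : ∀ v, v ∈ T ↔ fderiv ℝ f p v = 0 := by
    intro v
    rw [hT, hker]
    exact LinearMap.mem_ker
  have hmem' : ∀ v ∈ T, ∀ f', IsLocalDefining Ω p f' → dd f' p v = 0 := by
    intro v hv f' hf'
    rw [hT, P219D.tangent_eq_ker (conormal_of hf')] at hv
    exact LinearMap.mem_ker.1 hv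
  have hval : ∀ b : Fin (n - 1) → Rn n, IsFrame Ω p b →
      gramDet g p b = P219D.gramDet (G g) p T := by
    intro b hb
    have hbT : ∀ i, b i ∈ T := fun i => (hmem _).2 (hb.2 f hf i)
    have hon : Orthonormal ℝ (fun i => (⟨b i, hbT i⟩ : T)) := by
      refine ⟨fun i => hb.1.1 i, fun i j hij => ?_⟩
      exact hb.1.2 hij
    have hcard : Fintype.card (Fin (n - 1)) = Module.finrank ℝ T := by
      rw [hrank, Fintype.card_fin]
    obtain ⟨B, hB⟩ : ∃ B : OrthonormalBasis (Fin (n - 1)) ℝ T,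
        ∀ i, (B i : Rn n) = b i := by
      refine ⟨(basisOfOrthonormalOfCardEqFinrank hon hcard).toOrthonormalBasis ?_, fun i => ?_⟩
      · simpa using hon
      · simp
    rw [P219D.gramDet_eq_of_basis (G g) p T B]
    unfold gramDet
    congr 1
    ext i j
    simp only [Matrix.of_apply, hB]
    rw [G_apply hg]
  obtain ⟨b, hb⟩ : ∃ b : Fin (n - 1) → Rn n, IsFrame Ω p b := by
    let B := (stdOrthonormalBasis ℝ T).reindex (finCongr hrank)
    refine ⟨fun i => (B i : Rn n), ⟨fun i => ?_, fun i j hij => ?_⟩, fun f' hf' i => ?_⟩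
    · exact B.orthonormal.1 i
    · exact B.orthonormal.2 hij
    · exact hmem' _ (B i).2 f' hf'
  have hsup : ⨆ (b : Fin (n - 1) → Rn n) (_ : IsFrame Ω p b), ENNReal.ofReal √(gramDet g p b)
      = ENNReal.ofReal √(P219D.gramDet (G g) p T) := by
    apply le_antisymm
    · exact iSup₂_le fun b' hb' => by rw [hval b' hb']
    · refine le_iSup₂_of_le b hb ?_
      rw [hval b hb]
  rw [hT] at hsup
  exact hsup.symm

theorem of_D (hn : 2 ≤ n) {κ : ℝ} (h : P219D.CartanHadamardConjecture n κ) :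
    CartanHadamardConjecture n κ := by
  intro g hg Ω hΩ
  obtain ⟨r, hr, hv, ha, hi⟩ := h (G g) (secLE_G hg) Ω (domain_of hΩ)
  rw [vol_G hg.1] at hv
  rw [area_G hn hg.1 hΩ] at ha hi
  refine ⟨r, hr, hv, ha, fun heq => ?_⟩
  obtain ⟨φ, h1, h2, h3⟩ := hi heq
  refine ⟨φ, h1, h2, fun y hy u v => ?_⟩
  rw [← G_apply hg.1]
  exact h3 y hy u v

end Vale.Agent.Lib.P219E
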