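import Mathlib

/-!
# P219: the generalized Cartan-Hadamard conjecture, coordinate-free on `ℝⁿ`

By the Cartan-Hadamard theorem a complete simply connected Riemannian `n`-manifold with
`Sec ≤ κ ≤ 0` is diffeomorphic to `ℝⁿ`, so the manifold is `ℝⁿ` with a smooth metric `g`.
-/

open scoped ContDiff ENNReal Topology
open MeasureTheory Set

namespace Vale.Agent.Lib.P219E

noncomputable section

/-- `ℝⁿ` -/
abbrev Rn (n : ℕ) : Type := EuclideanSpace ℝ (Fin n)

variable {n : ℕ}

/-- directional derivative at `x` of the vector field (or map) `Y` in the direction `u` -/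
def D (Y : Rn n → Rn n) (x u : Rn n) : Rn n := fderiv ℝ Y x u

/-- directional derivative at `x` of the function `f` in the direction `u` -/
def dd (f : Rn n → ℝ) (x u : Rn n) : ℝ := fderiv ℝ f x u

/-- `g_x(u, v)` is a smooth Riemannian metric: an inner product depending smoothly on `x`. -/
structure IsRiemannianMetric (g : Rn n → Rn n → Rn n → ℝ) : Prop where
  smooth : ∀ u v, ContDiff ℝ ∞ (fun x => g x u v)
  add : ∀ x u u' v, g x (u + u') v = g x u v + g x u' v
  smul : ∀ x (c : ℝ) u v, g x (c • u) v = c * g x u v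
  symm : ∀ x u v, g x u v = g x v u
  pos : ∀ x v, v ≠ 0 → 0 < g x v v

/-- The connection `∇ = D + Γ`: covariant derivative at `x` of the field `Y` in the direction `u`. -/
def nabla (Γ : Rn n → Rn n → Rn n → Rn n) (u : Rn n) (Y : Rn n → Rn n) (x : Rn n) : Rn n :=
  D Y x u + Γ x u (Y x)

/-- `∇ = D + Γ` is the Levi-Civita connection of `g`: torsion free, and
`u (g (v, w)) = g (∇_u v, w) + g (v, ∇_u w)` (`v, w` constant fields, `∇_u v = Γ(u, v)`). -/
structure IsLeviCivita (g : Rn n → Rn n → Rn n → ℝ) (Γ : Rn n → Rn n → Rn n → Rn n) : Prop where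
  torsionFree : ∀ x u v, Γ x u v = Γ x v u
  metric : ∀ x u v w, dd (fun y => g y v w) x u = g x (Γ x u v) w + g x v (Γ x u w)

/-- Geodesic completeness: every geodesic `∇_γ' γ' = 0` is defined for all times. -/
def IsComplete (Γ : Rn n → Rn n → Rn n → Rn n) : Prop :=
  ∀ p v : Rn n, ∃ γ : ℝ → Rn n, ContDiff ℝ ∞ γ ∧ γ 0 = p ∧ deriv γ 0 = v ∧
    ∀ t, deriv (deriv γ) t + Γ (γ t) (deriv γ t) (deriv γ t) = 0

/-- Curvature tensor `R(u, v) w = ∇_u ∇_v w - ∇_v ∇_u w` (`u, v, w` constant fields, `[u, v] = 0`). -/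
def curvature (Γ : Rn n → Rn n → Rn n → Rn n) (x u v w : Rn n) : Rn n :=
  nabla Γ u (nabla Γ v fun _ => w) x - nabla Γ v (nabla Γ u fun _ => w) x

/-- `(ℝⁿ, g)` is a complete Riemannian manifold with sectional curvature at most `κ`:
`g (R(u, v) v, u) ≤ κ (g (u, u) g (v, v) - g (u, v)²)`. -/
def IsCompleteSecLE (κ : ℝ) (g : Rn n → Rn n → Rn n → ℝ) : Prop :=
  IsRiemannianMetric g ∧ ∃ Γ : Rn n → Rn n → Rn n → Rn n, IsLeviCivita g Γ ∧ IsComplete Γ ∧
    ∀ x u v, g x (curvature Γ x u v v) u ≤ κ * (g x u u * g x v v - g x u v ^ 2)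

/-- Gram determinant of `g x` on the vectors `b`. For a Euclidean orthonormal basis `b` of a subspace
its square root is the ratio of `g`-volume to Euclidean volume there. -/
def gramDet {k : ℕ} (g : Rn n → Rn n → Rn n → ℝ) (x : Rn n) (b : Fin k → Rn n) : ℝ :=
  (Matrix.of fun i j => g x (b i) (b j)).det

/-- Riemannian volume measure -/
def vol (g : Rn n → Rn n → Rn n → ℝ) : Measure (Rn n) :=
  volume.withDensity fun x => ENNReal.ofReal √(gramDet g x fun i => EuclideanSpace.single i 1)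

/-- `f` is a smooth defining function of `Ω` near the boundary point `p`. -/
def IsLocalDefining (Ω : Set (Rn n)) (p : Rn n) (f : Rn n → ℝ) : Prop :=
  ContDiff ℝ ∞ f ∧ f p = 0 ∧ (∃ v, dd f p v ≠ 0) ∧ ∀ᶠ x in 𝓝 p, x ∈ Ω ↔ f x < 0

/-- A domain: a bounded open set with smooth boundary. -/
structure IsSmoothDomain (Ω : Set (Rn n)) : Prop where
  isOpen : IsOpen Ω
  isBounded : Bornology.IsBounded Ω
  smooth_boundary : ∀ p ∈ frontier Ω, ∃ f, IsLocalDefining Ω p f

/-- `b` is a Euclidean orthonormal basis of the tangent space of `∂Ω` at `p`. -/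
def IsFrame (Ω : Set (Rn n)) (p : Rn n) (b : Fin (n - 1) → Rn n) : Prop :=
  Orthonormal ℝ b ∧ ∀ f, IsLocalDefining Ω p f → ∀ i, dd f p (b i) = 0

/-- Riemannian area of `∂Ω`: the area element of `g` is `√(det g(b_i, b_j)) dH`, `b` an orthonormal
basis of the tangent space (all give the same value), `dH` the Euclidean `(n-1)`-dimensional
Hausdorff measure. -/
def area (g : Rn n → Rn n → Rn n → ℝ) (Ω : Set (Rn n)) : ℝ≥0∞ :=
  ∫⁻ p in frontier Ω, ⨆ (b : Fin (n - 1) → Rn n) (_ : IsFrame Ω p b),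
    ENNReal.ofReal √(gramDet g p b) ∂(Measure.euclideanHausdorffMeasure (n - 1))

/-- `sn r = r` for `κ = 0` and `sinh (b r) / b` for `κ < 0`, `b = √(-κ)` -/
def sn (κ r : ℝ) : ℝ := if κ = 0 then r else Real.sinh (√(-κ) * r) / √(-κ)

/-- volume of the Euclidean unit ball -/
def omega (n : ℕ) : ℝ := (volume (Metric.ball (0 : Rn n) 1)).toReal

/-- boundary area of a geodesic ball of radius `r` in the space form `M^n_κ` -/
def modelArea (n : ℕ) (κ r : ℝ) : ℝ := n * omega n * sn κ r ^ (n - 1)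

/-- volume of a geodesic ball of radius `r` in the space form `M^n_κ` -/
def modelVol (n : ℕ) (κ r : ℝ) : ℝ := n * omega n * ∫ t in (0 : ℝ)..r, sn κ t ^ (n - 1)

/-- Radius of the geodesic ball of radius `r` about `0` in the conformal ball model of `M^n_κ`,
metric `4 |dy|² / (1 + κ |y|²)²`: `r / 2` for `κ = 0`, `tanh (b r / 2) / b` for `κ < 0`. -/
def tn (κ r : ℝ) : ℝ := if κ = 0 then r / 2 else Real.tanh (√(-κ) * r / 2) / √(-κ)

/-- `(Ω, g)` is isometric to the geodesic ball of radius `r` of `M^n_κ` (conformal ball model). -/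
def IsometricToBall (κ : ℝ) (g : Rn n → Rn n → Rn n → ℝ) (Ω : Set (Rn n)) (r : ℝ) : Prop :=
  ∃ φ : Rn n → Rn n, ContDiffOn ℝ ∞ φ (Metric.ball 0 (tn κ r)) ∧
    BijOn φ (Metric.ball 0 (tn κ r)) Ω ∧
    ∀ y ∈ Metric.ball (0 : Rn n) (tn κ r), ∀ u v : Rn n,
      g (φ y) (D φ y u) (D φ y v) = 4 / (1 + κ * ‖y‖ ^ 2) ^ 2 * inner ℝ u v

/-- The generalized Cartan-Hadamard conjecture in dimension `n` for the curvature bound `κ`: if the
volume of a domain is `𝒱_κ(r)` then the area of its boundary is at least `𝒜_κ(r)`, with equality only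
for domains isometric to the geodesic ball of radius `r` of `M^n_κ`. -/
def CartanHadamardConjecture (n : ℕ) (κ : ℝ) : Prop :=
  ∀ g : Rn n → Rn n → Rn n → ℝ, IsCompleteSecLE κ g → ∀ Ω : Set (Rn n), IsSmoothDomain Ω →
    ∃ r : ℝ, 0 ≤ r ∧ vol g Ω = ENNReal.ofReal (modelVol n κ r) ∧
      ENNReal.ofReal (modelArea n κ r) ≤ area g Ω ∧
      (area g Ω = ENNReal.ofReal (modelArea n κ r) → IsometricToBall κ g Ω r)

end

end Vale.Agent.Lib.P219E
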